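import Vale.Agent.P113.Main

namespace Vale.Agent.Results.P113.HaltingDetection

open Set Vale.Agent.P113

/-- Affirmative answer to Q1 of P113, for every real viscosity. -/
theorem result : ∀ ν : ℝ, 0 < ν →
    ∃ (a : T3) (O : Set T3) (force : Machine → List ℕ → ℝ → T3 → R3)
      (compile : Machine × List ℕ → Nat.Partrec.Code) (T₀ : ℝ),
      IsOpen O ∧ 0 ≤ T₀ ∧ Computable compile ∧
      (∀ M w, (∀ j, SmoothOn (comp (force M w) j)) ∧ Computes (compile (M, w)) (force M w)) ∧
      (∀ M, ∃ P > 0, ∀ w t x, T₀ ≤ t → force M w (t + P) x = force M w t x) ∧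
      (∀ M w w' t x, T₀ ≤ t → force M w t x = force M w' t x) ∧
      ∀ M w, ∃ (u : ℝ → T3 → R3) (p : ℝ → T3 → ℝ),
        (∀ j, SmoothOn (comp u j)) ∧ SmoothOn (lift p) ∧
        (∀ T > 0, ClassicalSolution ν T (force M w) u p ∧
          ∀ v q, ClassicalSolution ν T (force M w) v q →
            ∀ t ∈ Icc 0 T, v t = u t ∧ q t = p t) ∧
        ∃ X : ℝ → R3, IsTrajectory u a X ∧
          (∀ Y, IsTrajectory u a Y → ∀ t, 0 ≤ t → proj (Y t) = proj (X t)) ∧
          ((∃ t, 0 ≤ t ∧ proj (X t) ∈ O) ↔ Halts M w) := by
  intro ν hν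
  refine ⟨proj 0, target, fun M w => uni fun t => amp M w * prof t, compiler, 1,
    isOpen_target, zero_le_one, computable_compiler, ?_, ?_, ?_, ?_⟩
  · intro M w
    exact ⟨smooth_uni (contDiff_const.mul contDiff_prof), computes_force M w⟩
  · intro M
    refine ⟨1, one_pos, fun w t x ht => ?_⟩
    simp only [uni]
    rw [prof_of_one_le ht, prof_of_one_le (by linarith)]
  · intro M w w' t x ht
    simp only [uni]
    rw [prof_of_one_le ht]
    simp
  · intro M w
    have hc : Continuous fun t => amp M w * prof t := continuous_const.mul prof_continuous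
    have hC : ∀ t, HasDerivAt (fun t => amp M w * prim1 t) (amp M w * prof t) t :=
      fun t => (hasDerivAt_prim1 t).const_mul _
    have hX : IsTrajectory (uni fun t => amp M w * prim1 t) (proj 0)
        (fun t => Pi.single 0 (amp M w * prim2 t)) := by
      refine ⟨by simp [prim2_zero], fun j t _ => ?_⟩
      exact hasDerivWithinAt_single ((hasDerivAt_prim2 t).const_mul _).hasDerivWithinAt j
    refine ⟨uni fun t => amp M w * prim1 t, fun _ _ => 0,
      smooth_uni (contDiff_const.mul contDiff_prim1), smooth_zero, ?_,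
      fun t => Pi.single 0 (amp M w * prim2 t), hX, ?_, ?_⟩
    · intro T hT
      refine ⟨uni_solution ν hT hc hC (by simp [prim1_zero]), fun v q h t ht => ?_⟩
      have hCd : ∀ t ∈ Icc 0 T, ∀ j, HasDerivWithinAt
          (fun t => (Pi.single 0 (amp M w * prim1 t) : R3) j)
          ((Pi.single 0 (amp M w * prof t) : R3) j) (Icc 0 T) t := fun t _ j =>
        hasDerivWithinAt_single (hC t).hasDerivWithinAt j
      have hvel := velocity_unique hν hT (fun t => (Pi.single 0 (amp M w * prof t) : R3))
        (fun t => (Pi.single 0 (amp M w * prim1 t) : R3)) (fun _ _ _ => rfl)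
        (continuous_single hc).continuousOn (by simp [prim1_zero]) hCd h
      have hp := pressure_unique hT (fun t => (Pi.single 0 (amp M w * prof t) : R3))
        (fun t => (Pi.single 0 (amp M w * prim1 t) : R3)) (fun _ _ _ => rfl) hCd h hvel
      exact ⟨funext fun y => hvel t ht y, funext fun y => hp t ht y⟩
    · intro Y hY
      exact trajectory_unique hX hY
    · rw [target_iff _ (amp_nonneg M w)]
      exact amp_pos_iff M w

end Vale.Agent.Results.P113.HaltingDetection
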